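import Vale.Agent.P281.H150.Sec
import Vale.Agent.P281.H150.Gen.Core

/-!
# P281, project T-M, block T0 (helper22): a good point of `E`, the image is a graph
-/

open Set Filter Metric Vale.Agent.P281 Vale.Agent.P281.H713 Vale.Agent.P281.H64
open Vale.Agent.P281.H150.Gen (pr lst)
open scoped Topology ContDiff Manifold

noncomputable section

namespace Vale.Agent.P281.H22.TM

variable {q : ℕ}

/-- `(b, c)` -/
def sn (q : ℕ) (b : Cm q) (c : ℂ) : Cm (q + 1) := Fin.snoc (α := fun _ => ℂ) b c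

theorem pr_sn (b : Cm q) (c : ℂ) : pr q (sn q b c) = b := by
  funext i
  simp [sn]

theorem lst_sn (b : Cm q) (c : ℂ) : lst q (sn q b c) = c := by
  simp [sn]

theorem sn_pr (w : Cm (q + 1)) : sn q (pr q w) (lst q w) = w := by
  funext i
  refine Fin.lastCases ?_ (fun j => ?_) i
  · simp [sn]
  · simp [sn]

/-- the direction of the last variable -/
def ln (q : ℕ) : Cm (q + 1) := sn q 0 1

theorem pr_ln : pr q (ln q) = 0 := pr_sn _ _

theorem lst_ln : lst q (ln q) = 1 := lst_sn _ _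

theorem eq_add {w w' : Cm (q + 1)} (h : pr q w = pr q w') : w' = w + (lst q w' - lst q w) • ln q := by
  funext i
  refine Fin.lastCases ?_ (fun j => ?_) i
  · simp [ln, sn]
  · have h1 := congrFun h j
    simp only [H150.Gen.pr_apply] at h1
    simp [ln, sn, h1]

/-- A function without derivative in the last direction does not depend on the last variable. -/
theorem const_of {h : Cm (q + 1) → ℂ} {c : Cm (q + 1)} {r : ℝ}
    (hh : ∀ y ∈ ball c r, AnalyticAt ℂ h y) (key : ∀ y ∈ ball c r, fderiv ℂ h y (ln q) = 0)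
    {w w' : Cm (q + 1)} (hw : w ∈ ball c r) (hw' : w' ∈ ball c r) (hp : pr q w = pr q w') :
    h w = h w' := by
  set a : ℂ := lst q w' - lst q w with ha
  have hw'e : w' = w + a • ln q := eq_add hp
  have hseg : ∀ s ∈ Icc (0 : ℝ) 1, w + (s : ℂ) • (a • ln q) ∈ ball c r := by
    intro s hs
    have h1 : w + (s : ℂ) • (a • ln q) = (1 - s) • w + s • w' := by
      rw [hw'e]
      ext i
      simp only [Pi.add_apply, Pi.smul_apply, smul_eq_mul, Complex.real_smul]
      push_cast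
      ring
    rw [h1]
    exact (convex_ball c r) hw hw' (by linarith [hs.2]) hs.1 (by ring)
  have hd : ∀ s ∈ Icc (0 : ℝ) 1, HasDerivAt (fun s : ℝ => h (w + (s : ℂ) • (a • ln q))) 0 s := by
    intro s hs
    have h1 := (hh _ (hseg s hs)).differentiableAt.hasFDerivAt
    have h2 : HasDerivAt (fun s : ℝ => w + (s : ℂ) • (a • ln q)) (a • ln q) s := by
      have h3 : HasDerivAt (fun s : ℝ => (s : ℂ)) 1 s := Complex.ofRealCLM.hasDerivAt
      have h4 := (h3.smul_const (a • ln q)).const_add w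
      simpa using h4
    have h3 := (h1.restrictScalars ℝ).comp_hasDerivAt s h2
    have h4 : (fderiv ℂ h (w + (s : ℂ) • (a • ln q))) (a • ln q) = 0 := by
      rw [map_smul, key _ (hseg s hs), smul_zero]
    have h5 : HasDerivAt (h ∘ fun s : ℝ => w + (s : ℂ) • (a • ln q))
        ((fderiv ℂ h (w + (s : ℂ) • (a • ln q))) (a • ln q)) s := h3
    rw [h4] at h5
    exact h5
  have h1 := constant_of_derivWithin_zero (a := (0 : ℝ)) (b := 1)
    (f := fun s : ℝ => h (w + (s : ℂ) • (a • ln q)))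
    (fun s hs => (hd s hs).differentiableAt.differentiableWithinAt)
    (fun s hs => (hd s ⟨hs.1, hs.2.le⟩).hasDerivWithinAt.derivWithin
      (uniqueDiffOn_Icc one_pos s ⟨hs.1, hs.2.le⟩)) 1 ⟨zero_le_one, le_rfl⟩
  simp only [Complex.ofReal_one, one_smul, Complex.ofReal_zero, zero_smul, add_zero] at h1
  rw [hw'e, h1]

/-- If the image of `y ↦ (pr y, h y)` has no interior, then `h` does not depend on the last
variable. -/
theorem indep {h : Cm (q + 1) → ℂ} {c : Cm (q + 1)} {r : ℝ}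
    (hh : ∀ y ∈ ball c r, AnalyticAt ℂ h y)
    (hint : interior ((fun y => (pr q y, h y)) '' ball c r) = ∅) {w w' : Cm (q + 1)}
    (hw : w ∈ ball c r) (hw' : w' ∈ ball c r) (hp : pr q w = pr q w') : h w = h w' := by
  have key : ∀ y ∈ ball c r, fderiv ℂ h y (ln q) = 0 := by
    intro y hy
    by_contra hne
    set L : Cm (q + 1) →L[ℂ] Cm q × ℂ := (pr q).prod (fderiv ℂ h y) with hL
    have hinj : Function.Injective L := by
      refine (injective_iff_map_eq_zero L).2 fun ξ hξ => ?_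
      have h1 : pr q ξ = 0 := congrArg Prod.fst hξ
      have h2 : fderiv ℂ h y ξ = 0 := congrArg Prod.snd hξ
      have h3 : ξ = 0 + (lst q ξ - lst q 0) • ln q := eq_add (by rw [h1, map_zero])
      rw [zero_add, map_zero, sub_zero] at h3
      rw [h3, map_smul, smul_eq_mul] at h2
      rcases mul_eq_zero.1 h2 with h4 | h4
      · rw [h3, h4, zero_smul]
      · exact absurd h4 hne
    have hfin : Module.finrank ℂ (Cm (q + 1)) = Module.finrank ℂ (Cm q × ℂ) := by simp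
    have hsur : Function.Surjective L :=
      (LinearMap.injective_iff_surjective_of_finrank_eq_finrank
        (f := (L : Cm (q + 1) →ₗ[ℂ] Cm q × ℂ)) hfin).1 hinj
    have h5 : HasStrictFDerivAt (fun y => (pr q y, h y)) L y :=
      (pr q).hasStrictFDerivAt.prodMk (hh y hy).hasStrictFDerivAt
    have h6 := h5.map_nhds_eq_of_surj (LinearMap.range_eq_top.2 hsur)
    have h7 : (fun y => (pr q y, h y)) '' ball c r ∈ 𝓝 (pr q y, h y) := by
      rw [← h6]
      exact image_mem_map (isOpen_ball.mem_nhds hy)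
    have h8 := mem_interior_iff_mem_nhds.2 h7
    rw [hint] at h8
    exact h8
  exact const_of hh key hw hw' hp

theorem analyticAt_sn (c : ℂ) (b : Cm q) : AnalyticAt ℂ (fun b => sn q b c) b := by
  refine AnalyticAt.pi fun i => ?_
  refine Fin.lastCases ?_ (fun j => ?_) i
  · simp only [sn, Fin.snoc_last]
    exact analyticAt_const
  · simp only [sn, Fin.snoc_castSucc]
    exact (ContinuousLinearMap.proj (R := ℂ) (φ := fun _ : Fin q => ℂ) j).analyticAt b

section mfd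
variable {X : Type} [TopologicalSpace X] [ChartedSpace (Cm (q + 1 + 1)) X]
  [IsManifold 𝓘(ℂ, Cm (q + 1 + 1)) ω X]

/-- A section of the hypersurface `{e = 0}` over `ℂ^(q+1)`, for `f` and one more function. -/
theorem sec_at {f : X → Cm q} {e : X → ℂ} {x : X} (hf : HolV (Cm (q + 1 + 1)) f x)
    (he : HolV (Cm (q + 1 + 1)) e x) (he0 : e x = 0)
    (hsub : Function.Surjective fun ξ : Cm (q + 1 + 1) =>
      ((dV (Cm (q + 1 + 1)) f x ξ, dV (Cm (q + 1 + 1)) e x ξ) : Cm q × ℂ)) :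
    ∃ (ζ : X → ℂ) (s : Cm (q + 1) → X), HolV (Cm (q + 1 + 1)) (fun z => sn q (f z) (ζ z)) x ∧
      HolM (Cm (q + 1)) (Cm (q + 1 + 1)) s (sn q (f x) (ζ x)) ∧ s (sn q (f x) (ζ x)) = x ∧
      (∀ᶠ y in 𝓝 (sn q (f x) (ζ x)), sn q (f (s y)) (ζ (s y)) = y ∧ e (s y) = 0) ∧
      ∀ᶠ z in 𝓝 x, e z = 0 → s (sn q (f z) (ζ z)) = z := by
  set φ := chartAt (Cm (q + 1 + 1)) x with hφ
  have hxs : x ∈ φ.source := mem_chart_source _ x
  set Lf : Cm (q + 1 + 1) →L[ℂ] Cm q := dV (Cm (q + 1 + 1)) f x with hLf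
  set Le : Cm (q + 1 + 1) →L[ℂ] ℂ := dV (Cm (q + 1 + 1)) e x with hLe
  set Lφ : Cm (q + 1 + 1) →L[ℂ] Cm (q + 1 + 1) := dV (Cm (q + 1 + 1)) (φ : X → Cm (q + 1 + 1)) x
    with hLφ
  -- a linear form which does not vanish on the kernel
  have hker : ∃ ℓ : Cm (q + 1 + 1) →L[ℂ] ℂ, ∀ ξ, Lf ξ = 0 → Le ξ = 0 → ℓ (Lφ ξ) = 0 → ξ = 0 := by
    set L : Cm (q + 1 + 1) →ₗ[ℂ] Cm q × ℂ := ((Lf.prod Le : Cm (q + 1 + 1) →L[ℂ] Cm q × ℂ) :
      Cm (q + 1 + 1) →ₗ[ℂ] Cm q × ℂ) with hL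
    have hsur : Function.Surjective L := hsub
    have h1 := LinearMap.finrank_range_add_finrank_ker L
    rw [LinearMap.range_eq_top.2 hsur, finrank_top] at h1
    have h2 : Module.finrank ℂ (LinearMap.ker L) = 1 := by
      simp only [Module.finrank_prod, Module.finrank_fin_fun, Module.finrank_self] at h1
      omega
    obtain ⟨v, hv0, hv⟩ := finrank_eq_one_iff'.1 h2
    have h3 : Lφ (v : Cm (q + 1 + 1)) ≠ 0 := by
      intro h4
      have h5 : Function.Injective (mfderiv 𝓘(ℂ, Cm (q + 1 + 1)) 𝓘(ℂ, Cm (q + 1 + 1)) φ x) :=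
        (mdifferentiable_chart x).mfderiv_injective hxs
      have h6 : (v : Cm (q + 1 + 1)) = 0 := h5 (h4.trans (map_zero Lφ).symm)
      exact hv0 (Subtype.ext h6)
    obtain ⟨i, hi⟩ : ∃ i, Lφ (v : Cm (q + 1 + 1)) i ≠ 0 := by
      by_contra hcon
      push Not at hcon
      exact h3 (funext hcon)
    refine ⟨ContinuousLinearMap.proj i, fun ξ h4 h5 h6 => ?_⟩
    have h7 : ξ ∈ LinearMap.ker L := LinearMap.mem_ker.2 (Prod.ext h4 h5)
    obtain ⟨c, hc⟩ := hv ⟨ξ, h7⟩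
    have h8 : c • (v : Cm (q + 1 + 1)) = ξ := congrArg Subtype.val hc
    have h9 : c * Lφ (v : Cm (q + 1 + 1)) i = 0 := by
      have h10 : Lφ ξ i = 0 := h6
      rw [← h8, map_smul] at h10
      exact h10
    rcases mul_eq_zero.1 h9 with h10 | h10
    · rw [← h8, h10, zero_smul]
    · exact absurd h10 hi
  obtain ⟨ℓ, hℓ⟩ := hker
  -- the section
  set ζ : X → ℂ := fun z => ℓ (φ z) with hζ
  have hζh : HolV (Cm (q + 1 + 1)) ζ x :=
    HolV.comp_contDiff (G := fun v => ℓ v) ℓ.contDiff.contDiffAt (HolV.chart hxs)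
  have hζd : dV (Cm (q + 1 + 1)) ζ x = ℓ.comp Lφ := by
    have h1 := mfderiv_comp x (I := 𝓘(ℂ, Cm (q + 1 + 1))) (I' := 𝓘(ℂ, Cm (q + 1 + 1)))
      (I'' := 𝓘(ℂ, ℂ)) (g := fun v => ℓ v) (f := (φ : X → Cm (q + 1 + 1)))
      ℓ.mdifferentiableAt (HolV.chart hxs).mdiff
    rw [ContinuousLinearMap.mfderiv_eq] at h1
    exact h1
  set F : X → Cm (q + 1) := fun z => sn q (f z) (ζ z) with hF
  have hFh : HolV (Cm (q + 1 + 1)) F x := by
    refine HolV.pi fun i => ?_
    refine Fin.lastCases ?_ (fun j => ?_) i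
    · have h1 : (fun z => F z (Fin.last q)) = ζ := by
        funext z
        simp [hF, sn]
      rw [h1]
      exact hζh
    · have h1 : (fun z => F z j.castSucc) = fun z => f z j := by
        funext z
        simp [hF, sn]
      rw [h1]
      exact HolV.comp_contDiff (G := fun v : Cm q => v j)
        (ContinuousLinearMap.proj (R := ℂ) (φ := fun _ : Fin q => ℂ) j).contDiff.contDiffAt hf
  have hpF : ∀ z, pr q (F z) = f z := fun z => pr_sn _ _
  have hlF : ∀ z, lst q (F z) = ζ z := fun z => lst_sn _ _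
  have hinj : ∀ ξ : Cm (q + 1 + 1), dM (Cm (q + 1 + 1)) (Cm (q + 1)) F x ξ = 0 →
      dV (Cm (q + 1 + 1)) e x ξ = 0 → ξ = 0 := by
    intro ξ h1 h2
    refine hℓ ξ ?_ h2 ?_
    · have h3 := dV_comp (E := Cm (q + 1 + 1)) (E' := Cm (q + 1)) (h := fun v => pr q v) (f := F)
        (x := x) (HolV.comp_contDiff (G := fun v => pr q v) (v := fun v => v)
          (pr q).contDiff.contDiffAt contMDiffAt_id) hFh
      simp only [hpF] at h3
      show dV (Cm (q + 1 + 1)) f x ξ = 0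
      rw [show dV (Cm (q + 1 + 1)) f x = _ from h3, ContinuousLinearMap.comp_apply, h1, map_zero]
    · have h3 := dV_comp (E := Cm (q + 1 + 1)) (E' := Cm (q + 1)) (h := fun v => lst q v) (f := F)
        (x := x) (HolV.comp_contDiff (G := fun v => lst q v) (v := fun v => v)
          (lst q).contDiff.contDiffAt contMDiffAt_id) hFh
      simp only [hlF] at h3
      have h4 : dV (Cm (q + 1 + 1)) ζ x ξ = 0 := by
        rw [show dV (Cm (q + 1 + 1)) ζ x = _ from h3, ContinuousLinearMap.comp_apply, h1, map_zero]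
      rw [hζd] at h4
      exact h4
  let e₀ : Cm (q + 1 + 1) ≃L[ℂ] (Cm (q + 1) × ℂ) := ContinuousLinearEquiv.ofFinrankEq (by simp)
  obtain ⟨s, hs1, hs2, hs3, hs4⟩ := H150.exists_sec (Y := Cm (q + 1)) e₀ (f := F) (u := e)
    (x₀ := x) hFh he he0 hinj
  exact ⟨ζ, s, hFh, hs1, hs2, hs3, hs4⟩

/-- **E3**: near a point `x` of the hypersurface `{e = 0}` at which `(df, de)` is onto, the image
of `(f, t)` is a graph over `ℂ^q`, if it has no interior. -/
theorem graph_at {f : X → Cm q} {t e : X → ℂ} {x : X} (hf : HolV (Cm (q + 1 + 1)) f x)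
    (ht : HolV (Cm (q + 1 + 1)) t x) (he : HolV (Cm (q + 1 + 1)) e x) (he0 : e x = 0)
    (hsub : Function.Surjective fun ξ : Cm (q + 1 + 1) =>
      ((dV (Cm (q + 1 + 1)) f x ξ, dV (Cm (q + 1 + 1)) e x ξ) : Cm q × ℂ)) {W : Set X}
    (hW : W ∈ 𝓝 x) (hint : interior ((fun z => (f z, t z)) '' {z | z ∈ W ∧ e z = 0}) = ∅) :
    ∃ N : Cm q → ℂ, AnalyticAt ℂ N (f x) ∧ N (f x) = t x ∧
      (∀ᶠ z in 𝓝 x, e z = 0 → t z = N (f z)) ∧
      ∀ W' ∈ 𝓝 x, ∀ᶠ b in 𝓝 (f x), ∃ z ∈ W', e z = 0 ∧ f z = b := by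
  obtain ⟨ζ, s, hFh', hs1', hs2', hs3', hs4'⟩ := sec_at hf he he0 hsub
  set F : X → Cm (q + 1) := fun z => sn q (f z) (ζ z) with hF
  have hFh : HolV (Cm (q + 1 + 1)) F x := hFh'
  have hs1 : HolM (Cm (q + 1)) (Cm (q + 1 + 1)) s (F x) := hs1'
  have hs2 : s (F x) = x := hs2'
  have hs3 : ∀ᶠ y in 𝓝 (F x), F (s y) = y ∧ e (s y) = 0 := hs3'
  have hs4 : ∀ᶠ z in 𝓝 x, e z = 0 → s (F z) = z := hs4'
  have hpF : ∀ z, pr q (F z) = f z := fun z => pr_sn _ _
  set h : Cm (q + 1) → ℂ := fun y => t (s y) with hh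
  have hha : AnalyticAt ℂ h (F x) := by
    have h1 : ContMDiffAt 𝓘(ℂ, Cm (q + 1 + 1)) 𝓘(ℂ, ℂ) ω t (s (F x)) := by
      rw [hs2]
      exact ht
    have h2 : ContMDiffAt 𝓘(ℂ, Cm (q + 1)) 𝓘(ℂ, ℂ) ω h (F x) :=
      ContMDiffAt.comp (g := t) (F x) h1 hs1
    exact (contMDiffAt_iff_contDiffAt.1 h2).analyticAt
  have hsc : Tendsto s (𝓝 (F x)) (𝓝 x) := by
    have h1 : ContinuousAt s (F x) := ContMDiffAt.continuousAt hs1
    have h2 := h1.tendsto
    rwa [hs2] at h2
  have hev : ∀ᶠ y in 𝓝 (F x), AnalyticAt ℂ h y ∧ (F (s y) = y ∧ e (s y) = 0) ∧ s y ∈ W :=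
    hha.eventually_analyticAt.and (hs3.and (hsc.eventually hW))
  obtain ⟨r, hr, hball⟩ := Metric.eventually_nhds_iff_ball.1 hev
  have hint' : interior ((fun y => (pr q y, h y)) '' ball (F x) r) = ∅ := by
    refine subset_empty_iff.1 (le_trans (interior_mono ?_) hint.le)
    rintro _ ⟨y, hy, rfl⟩
    obtain ⟨-, ⟨h1, h2⟩, h3⟩ := hball y hy
    have h5 : f (s y) = pr q y := by rw [← hpF, h1]
    exact ⟨s y, ⟨h3, h2⟩, Prod.ext h5 rfl⟩
  have hin : ∀ w ∈ ball (F x) r, ∀ w' ∈ ball (F x) r, pr q w = pr q w' → h w = h w' :=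
    fun w hw w' hw' => indep (fun y hy => (hball y hy).1) hint' hw hw'
  have hFx : sn q (f x) (ζ x) = F x := rfl
  have hsnc : Tendsto (fun b => sn q b (ζ x)) (𝓝 (f x)) (𝓝 (F x)) := by
    have h1 := (analyticAt_sn (ζ x) (f x)).continuousAt.tendsto
    rwa [hFx] at h1
  refine ⟨fun b => h (sn q b (ζ x)), ?_, ?_, ?_, ?_⟩
  · refine AnalyticAt.fun_comp (g := h) ?_ (analyticAt_sn (ζ x) (f x))
    rw [hFx]
    exact hha
  · show t (s (sn q (f x) (ζ x))) = t x
    rw [hFx, hs2]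
  · have h1 : Tendsto F (𝓝 x) (𝓝 (F x)) := hFh.continuousAt
    have h2 : Tendsto f (𝓝 x) (𝓝 (f x)) := hf.continuousAt
    filter_upwards [hs4, h1.eventually (ball_mem_nhds _ hr),
      (hsnc.comp h2).eventually (ball_mem_nhds _ hr)] with z a1 a2 a3 a4
    have a5 : h (F z) = h (sn q (f z) (ζ x)) := hin _ a2 _ a3 (by rw [hpF, pr_sn])
    show t z = h (sn q (f z) (ζ x))
    rw [← a5]
    show t z = t (s (F z))
    rw [a1 a4]
  · intro W' hW'
    filter_upwards [hsnc.eventually hs3, (hsc.comp hsnc).eventually hW'] with b a1 a2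
    refine ⟨s (sn q b (ζ x)), a2, a1.2, ?_⟩
    rw [← hpF, a1.1, pr_sn]

end mfd

end Vale.Agent.P281.H22.TM
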