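import Vale.Agent.P281.H180.TM.ESpec
import Vale.Agent.P281.H22.TM.Graph

/-!
# P281, project T-M, block T0, E3 (helper22): the graph at a good point
-/

open Set Filter Metric Vale.Agent.P281 Vale.Agent.P281.H713 Vale.Agent.P281.H64
open Vale.Agent.P281.H150.Gen (pr lst SThin)
open Vale.Agent.P281.H303.Gen (SmEq)
open scoped Topology ContDiff Manifold

noncomputable section

namespace Vale.Agent.P281.H22.TM

open Vale.Agent.P281.H180.TM

/-- **E3** -/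
theorem graph : GraphStmt := by
  intro q X _ _ _ _ D U f t hL x hxU hG
  obtain ⟨e, hSm, hsub⟩ := hG
  obtain ⟨hf, ht⟩ := hL.hol x hxU
  have he : HolV (Cm (q + 1 + 1)) e x := hSm.1
  have he0 : e x = 0 := hSm.2.1
  obtain ⟨ζ, s, hFh', hs1', hs2', hs3', hs4'⟩ := sec_at hf he he0 hsub
  set F : X → Cm (q + 1) := fun z => sn q (f z) (ζ z) with hF
  have hFh : HolV (Cm (q + 1 + 1)) F x := hFh'
  have hs1 : HolM (Cm (q + 1)) (Cm (q + 1 + 1)) s (F x) := hs1'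
  have hs2 : s (F x) = x := hs2'
  have hs3 : ∀ᶠ y in 𝓝 (F x), F (s y) = y ∧ e (s y) = 0 := hs3'
  have hs4 : ∀ᶠ z in 𝓝 x, e z = 0 → s (F z) = z := hs4'
  have hpF : ∀ z, pr q (F z) = f z := fun z => pr_sn _ _
  have hsc : Tendsto s (𝓝 (F x)) (𝓝 x) := by
    have h1 : ContinuousAt s (F x) := ContMDiffAt.continuousAt hs1
    have h2 := h1.tendsto
    rwa [hs2] at h2
  have hs5 : ∀ᶠ y in 𝓝 (F x), HolM (Cm (q + 1)) (Cm (q + 1 + 1)) s y :=
    HolM.eventually hs1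
  have hloc : ∀ᶠ z in 𝓝 x, z ∈ U ∧ (z ∈ D ↔ e z = 0) ∧ (z ∈ D → SmEq (n := q + 1 + 1) D e z) :=
    (hL.opn.eventually_mem hxU).and (hSm.2.2.2.and hSm.eventually)
  have hev : ∀ᶠ y in 𝓝 (F x), (∀ᶠ y' in 𝓝 y, F (s y') = y' ∧ e (s y') = 0) ∧
      HolM (Cm (q + 1)) (Cm (q + 1 + 1)) s y ∧ (s y ∈ U ∧ (s y ∈ D ↔ e (s y) = 0) ∧
        (s y ∈ D → SmEq (n := q + 1 + 1) D e (s y))) :=
    hs3.eventually_nhds.and (hs5.and (hsc.eventually hloc))
  obtain ⟨r, hr, hball⟩ := Metric.eventually_nhds_iff_ball.1 hev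
  set h : Cm (q + 1) → ℂ := fun y => t (s y) with hh
  have key : ∀ y ∈ ball (F x) r, AnalyticAt ℂ h y ∧ fderiv ℂ h y (ln q) = 0 := by
    intro y hy
    obtain ⟨h1, h2, h3, h4, h5⟩ := hball y hy
    have hD : s y ∈ D := h4.2 h1.self_of_nhds.2
    have hSy := h5 hD
    obtain ⟨hfy, hty⟩ := hL.hol (s y) h3
    have hey : HolV (Cm (q + 1 + 1)) e (s y) := hSy.1
    have hha : ContMDiffAt 𝓘(ℂ, Cm (q + 1)) 𝓘(ℂ, ℂ) ω h y := ContMDiffAt.comp (g := t) y hty h2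
    refine ⟨(contMDiffAt_iff_contDiffAt.1 hha).analyticAt, ?_⟩
    have d1 : ∀ η, dV (Cm (q + 1 + 1)) f (s y) (dM (Cm (q + 1)) (Cm (q + 1 + 1)) s y η) =
        pr q η := by
      intro η
      have h6 := dV_comp (E := Cm (q + 1)) (E' := Cm (q + 1 + 1)) (h := f) (f := s) (x := y) hfy h2
      have h7 : (fun z => f (s z)) =ᶠ[𝓝 y] fun z => pr q z := by
        filter_upwards [h1] with z hz
        rw [← hpF, hz.1]
      have h8 : dV (Cm (q + 1)) (fun z => f (s z)) y = pr q := by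
        show mfderiv _ _ _ _ = _
        rw [h7.mfderiv_eq, mfderiv_eq_fderiv]
        exact (pr q).fderiv
      rw [h8] at h6
      rw [h6]
      rfl
    have d2 : ∀ η, dV (Cm (q + 1 + 1)) e (s y) (dM (Cm (q + 1)) (Cm (q + 1 + 1)) s y η) = 0 := by
      intro η
      have h6 := dV_comp (E := Cm (q + 1)) (E' := Cm (q + 1 + 1)) (h := e) (f := s) (x := y) hey h2
      have h7 : (fun z => e (s z)) =ᶠ[𝓝 y] fun _ => (0 : ℂ) := by
        filter_upwards [h1] with z hz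
        exact hz.2
      have h8 : dV (Cm (q + 1)) (fun z => e (s z)) y = 0 := by
        show mfderiv _ _ _ _ = _
        rw [h7.mfderiv_eq]
        exact mfderiv_const
      rw [h8] at h6
      have h9 := congrArg (fun A : Cm (q + 1) →L[ℂ] ℂ => A η) h6
      exact h9.symm
    have hsur : Function.Surjective fun ξ : Cm (q + 1 + 1) =>
        (dV (Cm (q + 1 + 1)) f (s y) ξ, dV (Cm (q + 1 + 1)) e (s y) ξ) := by
      rintro ⟨v, c⟩
      obtain ⟨ξ₀, hξ₀⟩ : ∃ ξ₀, dV (Cm (q + 1 + 1)) e (s y) ξ₀ ≠ 0 := by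
        by_contra hcon
        push Not at hcon
        exact hSy.2.2.1 (ContinuousLinearMap.ext hcon)
      set ξ₁ := (c / dV (Cm (q + 1 + 1)) e (s y) ξ₀) • ξ₀ with hξ₁
      have h6 : dV (Cm (q + 1 + 1)) e (s y) ξ₁ = c := by
        rw [hξ₁, map_smul, smul_eq_mul, div_mul_cancel₀ _ hξ₀]
      refine ⟨ξ₁ + dM (Cm (q + 1)) (Cm (q + 1 + 1)) s y
        (sn q (v - dV (Cm (q + 1 + 1)) f (s y) ξ₁) 0), Prod.ext ?_ ?_⟩
      · show dV (Cm (q + 1 + 1)) f (s y) (ξ₁ + _) = v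
        rw [map_add, d1, pr_sn, add_sub_cancel]
      · show dV (Cm (q + 1 + 1)) e (s y) (ξ₁ + _) = c
        rw [map_add, d2, add_zero, h6]
    have h10 := hL.rk (s y) h3 e hSy hsur _ ((d1 (ln q)).trans pr_ln) (d2 (ln q))
    have h11 := dV_comp (E := Cm (q + 1)) (E' := Cm (q + 1 + 1)) (h := t) (f := s) (x := y) hty h2
    have h12 : dV (Cm (q + 1)) (fun z => t (s z)) y = fderiv ℂ h y := by
      show mfderiv _ _ _ _ = _
      rw [mfderiv_eq_fderiv]
    rw [h12] at h11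
    rw [h11]
    exact h10
  have hin : ∀ w ∈ ball (F x) r, ∀ w' ∈ ball (F x) r, pr q w = pr q w' → h w = h w' :=
    fun w hw w' hw' => const_of (fun y hy => (key y hy).1) (fun y hy => (key y hy).2) hw hw'
  have hFx : sn q (f x) (ζ x) = F x := rfl
  have hsnc : Tendsto (fun b => sn q b (ζ x)) (𝓝 (f x)) (𝓝 (F x)) := by
    have h1 := (analyticAt_sn (ζ x) (f x)).continuousAt.tendsto
    rwa [hFx] at h1
  refine ⟨fun b => h (sn q b (ζ x)), fun b => s (sn q b (ζ x)), ?_, ?_, hsc.comp hsnc, ?_⟩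
  · refine AnalyticAt.fun_comp (g := h) ?_ (analyticAt_sn (ζ x) (f x))
    rw [hFx]
    exact (key _ (mem_ball_self hr)).1
  · have h1 : Tendsto F (𝓝 x) (𝓝 (F x)) := hFh.continuousAt
    have h2 : Tendsto f (𝓝 x) (𝓝 (f x)) := hf.continuousAt
    filter_upwards [hs4, h1.eventually (ball_mem_nhds _ hr),
      (hsnc.comp h2).eventually (ball_mem_nhds _ hr), hSm.2.2.2] with z a1 a2 a3 a6 a4
    have a5 : h (F z) = h (sn q (f z) (ζ x)) := hin _ a2 _ a3 (by rw [hpF, pr_sn])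
    show t z = h (sn q (f z) (ζ x))
    rw [← a5]
    show t z = t (s (F z))
    rw [a1 (a6.1 a4)]
  · filter_upwards [hsnc.eventually hs3, (hsc.comp hsnc).eventually hSm.2.2.2] with b a1 a2
    refine ⟨a2.2 a1.2, ?_⟩
    rw [← hpF, a1.1, pr_sn]

end Vale.Agent.P281.H22.TM
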