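import Vale.Agent.P281.H303.Gen.Push3

/-!
# P281, project T-M, block T0 (helper22): finitely many local graphs
-/

open Set Filter Metric Vale.Agent.P281 Vale.Agent.P281.H713 Vale.Agent.P281.H64
open Vale.Agent.P281.H150.Gen (pr lst)
open scoped Topology ContDiff Manifold

noncomputable section

namespace Vale.Agent.P281.H22.TM

/-- **E6** (compactness): if `K` is compact, and near every point of `K` over `b` the values of `t`
are on finitely many local graphs contained in `R = (f, t)(K)`, then `R` is a finite union of graphs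
near `b`. -/
theorem finset_graphs {p : ℕ} {X : Type} [TopologicalSpace X] {K : Set X}
    (hK : IsCompact K) {f : X → Cm p} {t : X → ℂ} (hf : ContinuousOn f K) {b : Cm p}
    {R : Cm p → ℂ → Prop} (hR : ∀ b' σ, R b' σ ↔ ∃ z ∈ K, f z = b' ∧ t z = σ)
    {P : (Cm p → ℂ) → Prop}
    (hloc : ∀ w ∈ K, f w = b → ∃ T : Finset (Cm p → ℂ), (∀ s ∈ T, P s) ∧
      (∀ᶠ z in 𝓝[K] w, ∃ s ∈ T, t z = s (f z)) ∧ ∀ s ∈ T, ∀ᶠ b' in 𝓝 b, R b' (s b')) :
    ∃ T : Finset (Cm p → ℂ), (∀ s ∈ T, P s) ∧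
      ∀ᶠ b' in 𝓝 b, ∀ σ : ℂ, R b' σ ↔ ∃ s ∈ T, σ = s b' := by
  classical
  -- the set of functions
  have key : ∃ T : Finset (Cm p → ℂ), (∀ s ∈ T, P s) ∧ (∀ s ∈ T, ∀ᶠ b' in 𝓝 b, R b' (s b')) ∧
      ∀ᶠ b' in 𝓝 b, ∀ z ∈ K, f z = b' → ∃ s ∈ T, t z = s b' := by
    refine hK.induction_on (p := fun A => ∃ T : Finset (Cm p → ℂ), (∀ s ∈ T, P s) ∧
      (∀ s ∈ T, ∀ᶠ b' in 𝓝 b, R b' (s b')) ∧
      ∀ᶠ b' in 𝓝 b, ∀ z ∈ A, f z = b' → ∃ s ∈ T, t z = s b') ?_ ?_ ?_ ?_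
    · exact ⟨∅, by simp, by simp, by simp⟩
    · rintro A B hAB ⟨T, h1, h2, h3⟩
      exact ⟨T, h1, h2, h3.mono fun b' hb' z hz => hb' z (hAB hz)⟩
    · rintro A B ⟨T, h1, h2, h3⟩ ⟨T', h1', h2', h3'⟩
      refine ⟨T ∪ T', fun s hs => ?_, fun s hs => ?_, ?_⟩
      · rcases Finset.mem_union.1 hs with h | h
        · exact h1 s h
        · exact h1' s h
      · rcases Finset.mem_union.1 hs with h | h
        · exact h2 s h
        · exact h2' s h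
      · filter_upwards [h3, h3'] with b' a1 a2 z hz hzb
        rcases hz with hz | hz
        · obtain ⟨s, hs, hts⟩ := a1 z hz hzb
          exact ⟨s, Finset.mem_union_left _ hs, hts⟩
        · obtain ⟨s, hs, hts⟩ := a2 z hz hzb
          exact ⟨s, Finset.mem_union_right _ hs, hts⟩
    · intro w hw
      by_cases hwb : f w = b
      · obtain ⟨T, h1, h2, h3⟩ := hloc w hw hwb
        refine ⟨{z | ∃ s ∈ T, t z = s (f z)}, h2, T, h1, h3, ?_⟩
        refine Eventually.of_forall fun b' z hz hzb => ?_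
        obtain ⟨s, hs, hts⟩ := hz
        exact ⟨s, hs, by rw [hts, hzb]⟩
      · obtain ⟨U, V, hU, hV, hUw, hVb, hUV⟩ := t2_separation hwb
        refine ⟨{z | f z ∈ U}, (hf w hw) (hU.mem_nhds hUw), ∅, by simp, by simp, ?_⟩
        filter_upwards [hV.mem_nhds hVb] with b' hb' z hz hzb
        exact absurd (show f z ∈ V from hzb ▸ hb') (disjoint_left.1 hUV hz)
  obtain ⟨T, h1, h2, h3⟩ := key
  refine ⟨T, h1, ?_⟩
  have h4 : ∀ᶠ b' in 𝓝 b, ∀ s ∈ T, R b' (s b') := (Finset.eventually_all T).2 h2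
  filter_upwards [h3, h4] with b' a1 a2 σ
  constructor
  · intro h5
    obtain ⟨z, hz, hzb, rfl⟩ := (hR b' σ).1 h5
    exact a1 z hz hzb
  · rintro ⟨s, hs, rfl⟩
    exact a2 s hs

/-- The same for indexed families. -/
theorem finite_graphs {p : ℕ} {X : Type} [TopologicalSpace X] {K : Set X}
    (hK : IsCompact K) {f : X → Cm p} {t : X → ℂ} (hf : ContinuousOn f K) {b : Cm p}
    {R : Cm p → ℂ → Prop} (hR : ∀ b' σ, R b' σ ↔ ∃ z ∈ K, f z = b' ∧ t z = σ)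
    {P : (Cm p → ℂ) → Prop}
    (hloc : ∀ w ∈ K, f w = b → ∃ (n : ℕ) (s : Fin n → Cm p → ℂ), (∀ j, P (s j)) ∧
      (∀ᶠ z in 𝓝[K] w, ∃ j, t z = s j (f z)) ∧ ∀ j, ∀ᶠ b' in 𝓝 b, R b' (s j b')) :
    ∃ (n : ℕ) (s : Fin n → Cm p → ℂ), (∀ j, P (s j)) ∧
      ∀ᶠ b' in 𝓝 b, ∀ σ : ℂ, R b' σ ↔ ∃ j, σ = s j b' := by
  classical
  obtain ⟨T, h1, h2⟩ := finset_graphs (t := t) hK hf hR (P := P) fun w hw hwb => by
    obtain ⟨n, s, h1, h2, h3⟩ := hloc w hw hwb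
    refine ⟨Finset.univ.image s, ?_, ?_, ?_⟩
    · intro s' hs'
      obtain ⟨j, -, rfl⟩ := Finset.mem_image.1 hs'
      exact h1 j
    · filter_upwards [h2] with z hz
      obtain ⟨j, hj⟩ := hz
      exact ⟨s j, Finset.mem_image_of_mem s (Finset.mem_univ j), hj⟩
    · intro s' hs'
      obtain ⟨j, -, rfl⟩ := Finset.mem_image.1 hs'
      exact h3 j
  refine ⟨T.card, fun j => (T.equivFin.symm j : Cm p → ℂ), fun j => h1 _ (T.equivFin.symm j).2, ?_⟩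
  filter_upwards [h2] with b' a σ
  rw [a σ]
  constructor
  · rintro ⟨s, hs, rfl⟩
    exact ⟨T.equivFin ⟨s, hs⟩, by simp⟩
  · rintro ⟨j, rfl⟩
    exact ⟨_, (T.equivFin.symm j).2, rfl⟩

end Vale.Agent.P281.H22.TM
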