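import Vale.Agent.P281.H180.TM.ESpec
import Vale.Agent.P281.H22.TM.Cpt

/-!
# P281, project T-M, block T0, E6 (helper22): compactness
-/

open Set Filter Metric Vale.Agent.P281 Vale.Agent.P281.H713 Vale.Agent.P281.H64
open Vale.Agent.P281.H150.Gen (pr lst SThin)
open scoped Topology ContDiff Manifold

noncomputable section

namespace Vale.Agent.P281.H22.TM

open Vale.Agent.P281.H180.TM

/-- **E6** -/
theorem fin_of (graph : GraphStmt) (loc : LocStmt) : FinStmt := by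
  intro q X _ _ _ _ _ D U K B f t S hL hV hK hB hc hiff
  refine ⟨fun b₀ hb₀ hbS => ?_, fun x hxU hxD N hN => ?_⟩
  · refine finset_graphs (t := t) (R := fun b s => ∃ x ∈ K, f x = b ∧ t x = s)
      (P := fun τ => AnalyticAt ℂ τ b₀) hK (fun x hx => (hc x hx).1.continuousWithinAt)
      (fun _ _ => Iff.rfl) fun w hw hwb => ?_
    have hwB : f w ∈ B := by rw [hwb]; exact hb₀
    obtain ⟨hwD, hwU⟩ := (hiff w).1 ⟨hw, hwB⟩
    obtain ⟨T, h1, h2⟩ := loc q X D U f t S hL hV w hwU hwD (by rw [hwb]; exact hbS)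
    rw [hwb] at h1
    refine ⟨T, fun s hs => (h1 s hs).1, ?_, fun s hs => ?_⟩
    · rw [eventually_nhdsWithin_iff]
      filter_upwards [h2, (hc w hw).1.eventually (hB.mem_nhds hwB)] with z a1 a2 a3
      exact a1 ((hiff z).1 ⟨a3, a2⟩).1
    · filter_upwards [(h1 s hs).2] with b hb
      obtain ⟨z, hzD, hzU, hzb, hzt⟩ := hb
      exact ⟨z, ((hiff z).2 ⟨hzD, hzU⟩).1, hzb, hzt⟩
  · obtain ⟨z, ⟨hzN, hzU⟩, hzG⟩ := mem_closure_iff_nhds.1 (hL.dense x hxU hxD) (interior N ∩ U)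
      (inter_mem (interior_mem_nhds.2 hN) (hL.opn.mem_nhds hxU))
    obtain ⟨τ, s, -, -, h1, h2⟩ := graph q X D U f t hL z hzU hzG
    refine ⟨f z, mem_interior_iff_mem_nhds.2 ?_⟩
    filter_upwards [h1.eventually (isOpen_interior.mem_nhds hzN), h2] with b a1 a2
    exact ⟨s b, ⟨a2.1, interior_subset a1⟩, a2.2⟩

end Vale.Agent.P281.H22.TM
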