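import Vale.Agent.P281.H740.TM.SpecR
import Vale.Agent.P281.H511.Gen.Prime

/-!
# P281, project T-M, block R6 (helper22): very general position
-/

open Set Filter Metric
open Vale.Agent.P281 Vale.Agent.P281.H713 Vale.Agent.P281.H713.TZ.S
open Vale.Agent.P281.H64.Thin (IsThinSet)
open Vale.Agent.P281.H64.Gen (IsSmallSet IsAnalyticSet)
open scoped Manifold ContDiff Topology

noncomputable section

namespace Vale.Agent.P281.H22.TM

open Vale.Agent.P281.H740.TM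

section vg
variable {q : ℕ} {Y : Type} [TopologicalSpace Y] [ChartedSpace (Cm q) Y]

/-- `P` holds for very general `y` -/
def VG (q : ℕ) {Y : Type} [TopologicalSpace Y] [ChartedSpace (Cm q) Y] (P : Y → Prop) : Prop :=
  ∃ H : ℕ → Set Y, (∀ k, IsThinSet (Cm q) (H k)) ∧ ∀ y, (∀ k, y ∉ H k) → P y

theorem VG.mono {P Q : Y → Prop} (h : VG q P) (hPQ : ∀ y, P y → Q y) : VG q Q := by
  obtain ⟨H, h1, h2⟩ := h
  exact ⟨H, h1, fun y hy => hPQ y (h2 y hy)⟩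

theorem VG.nat {P : ℕ → Y → Prop} (h : ∀ n, VG q (P n)) : VG q (fun y => ∀ n, P n y) := by
  choose H hH hP using h
  refine ⟨fun k => H k.unpair.1 k.unpair.2, fun k => hH _ _, fun y hy n => hP n y fun k => ?_⟩
  have h1 := hy (Nat.pair n k)
  simpa using h1

theorem VG.and {P Q : Y → Prop} (h : VG q P) (h' : VG q Q) : VG q (fun y => P y ∧ Q y) := by
  have h1 := VG.nat (P := fun n y => if n = 0 then P y else Q y) fun n => by
    by_cases hn : n = 0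
    · simpa [hn] using h
    · simpa [hn] using h'
  refine h1.mono fun y hy => ⟨by simpa using hy 0, by simpa using hy 1⟩

theorem VG.true : VG q (fun _ : Y => True) := by
  refine ⟨fun _ => ∅, fun _ => ⟨isClosed_empty, fun y => ⟨fun _ => 1, contMDiffAt_const, ?_, ?_⟩⟩,
    fun _ _ => trivial⟩
  · intro h
    exact one_ne_zero h.self_of_nhds
  · exact Eventually.of_forall fun z hz => absurd hz (notMem_empty z)

theorem VG.of_finite {α : Type} {s : Set α} (hs : s.Finite) {P : α → Y → Prop}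
    (h : ∀ a ∈ s, VG q (P a)) : VG q (fun y => ∀ a ∈ s, P a y) := by
  rcases s.eq_empty_or_nonempty with h0 | h0
  · exact VG.true.mono fun y _ a ha => by simp [h0] at ha
  · obtain ⟨f, rfl⟩ := hs.countable.exists_eq_range h0
    exact (VG.nat (P := fun n y => P (f n) y) fun n => h _ ⟨n, rfl⟩).mono fun y hy a ⟨n, hn⟩ =>
      hn ▸ hy n

theorem VG.imp {p : Prop} {P : Y → Prop} (h : p → VG q P) : VG q (fun y => p → P y) := by
  by_cases hp : p
  · exact (h hp).mono fun y hy _ => hy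
  · exact VG.true.mono fun y _ h' => absurd h' hp

end vg

section
variable {n : ℕ} {X : Type} [TopologicalSpace X] [ChartedSpace (Cm n) X]

/-- a prime divisor is nowhere dense -/
theorem not_nhds {D : Set X} (hD : J.IsPrime (Cm n) D) {x : X} : D ∉ 𝓝 x := by
  intro hN
  obtain ⟨g, V, hV, hxV, h1, h2, h3⟩ := hD.2.1 x
  have hxD : x ∈ D := mem_of_mem_nhds hN
  obtain ⟨z, ⟨hzi, hzV⟩, hzD, hz⟩ := mem_closure_iff_nhds.1 (h3 ⟨hxD, hxV⟩) (interior D ∩ V)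
    (inter_mem (interior_mem_nhds.2 hN) (hV.mem_nhds hxV))
  apply hz
  have h4 : g =ᶠ[𝓝 z] fun _ => 0 := by
    filter_upwards [isOpen_interior.mem_nhds hzi, hV.mem_nhds hzV] with z' h5 h6
    exact (h2 z' h6).1 (interior_subset h5)
  show mfderiv 𝓘(ℂ, Cm n) 𝓘(ℂ, ℂ) g z = 0
  rw [h4.mfderiv_eq]
  exact mfderiv_const

/-- an immersed ball of full dimension is open at its centre -/
theorem nhds_of_ball [IsManifold 𝓘(ℂ, Cm n) ω X] {D : Set X} {φ : Cm n → X}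
    (h : ∀ v ∈ ball (0 : Cm n) 1, ContMDiffAt 𝓘(ℂ, Cm n) 𝓘(ℂ, Cm n) ω φ v ∧
      Function.Injective (mfderiv 𝓘(ℂ, Cm n) 𝓘(ℂ, Cm n) φ v) ∧ φ v ∈ D) : D ∈ 𝓝 (φ 0) := by
  obtain ⟨hφ, hinj, -⟩ := h 0 (mem_ball_self one_pos)
  set c := chartAt (Cm n) (φ 0) with hc
  have hs : φ 0 ∈ c.source := mem_chart_source _ _
  have hcm : MDifferentiableAt 𝓘(ℂ, Cm n) 𝓘(ℂ, Cm n) c (φ 0) :=
    mdifferentiableAt_atlas (chart_mem_atlas _ _) hs
  have hcs : MDifferentiableAt 𝓘(ℂ, Cm n) 𝓘(ℂ, Cm n) c.symm (c (φ 0)) :=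
    mdifferentiableAt_atlas_symm (chart_mem_atlas _ _) (c.map_source hs)
  have hφm : MDifferentiableAt 𝓘(ℂ, Cm n) 𝓘(ℂ, Cm n) φ 0 := hφ.mdifferentiableAt (by simp)
  have h1 : ContMDiffAt 𝓘(ℂ, Cm n) 𝓘(ℂ, Cm n) ω (fun v => c (φ v)) 0 :=
    ContMDiffAt.comp (g := c) 0 (contMDiffAt_of_mem_maximalAtlas
      (IsManifold.subset_maximalAtlas (chart_mem_atlas _ _)) hs) hφ
  have h2 : ContDiffAt ℂ ω (fun v => c (φ v)) 0 := contMDiffAt_iff_contDiffAt.1 h1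
  have h3 : Function.Injective (fderiv ℂ (fun v => c (φ v)) 0) := by
    intro a b hab
    apply hinj
    have h4 : c.symm ∘ (fun v => c (φ v)) =ᶠ[𝓝 0] φ := by
      filter_upwards [hφ.continuousAt.eventually (c.open_source.mem_nhds hs)] with v hv
      exact c.left_inv hv
    have h5 : (mfderiv 𝓘(ℂ, Cm n) 𝓘(ℂ, Cm n) φ 0 : Cm n →L[ℂ] Cm n) =
        (mfderiv 𝓘(ℂ, Cm n) 𝓘(ℂ, Cm n) c.symm (c (φ 0)) : Cm n →L[ℂ] Cm n).comp
          (fderiv ℂ (fun v => c (φ v)) 0) := by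
      have h9 := HasMFDerivAt.comp (g := c.symm) (0 : Cm n) hcs.hasMFDerivAt
        (h2.differentiableAt (by simp)).hasFDerivAt.hasMFDerivAt
      exact (h9.congr_of_eventuallyEq h4.symm).mfderiv
    show (mfderiv 𝓘(ℂ, Cm n) 𝓘(ℂ, Cm n) φ 0 : Cm n →L[ℂ] Cm n) a =
      (mfderiv 𝓘(ℂ, Cm n) 𝓘(ℂ, Cm n) φ 0 : Cm n →L[ℂ] Cm n) b
    rw [h5]
    exact congrArg (mfderiv 𝓘(ℂ, Cm n) 𝓘(ℂ, Cm n) c.symm (c (φ 0)) : Cm n →L[ℂ] Cm n) hab
  set A : Cm n ≃L[ℂ] Cm n := (LinearEquiv.ofInjectiveEndo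
    ((fderiv ℂ (fun v => c (φ v)) 0 : Cm n →L[ℂ] Cm n) : Cm n →ₗ[ℂ] Cm n)
      h3).toContinuousLinearEquiv with hA
  have hA' : (A : Cm n →L[ℂ] Cm n) = fderiv ℂ (fun v => c (φ v)) 0 := by
    ext v
    rfl
  have h6 : HasStrictFDerivAt (fun v => c (φ v)) (A : Cm n →L[ℂ] Cm n) 0 := by
    rw [hA']
    exact h2.hasStrictFDerivAt (by simp)
  have h7 := h6.map_nhds_eq_of_equiv
  have h8 : ∀ᶠ w in 𝓝 (c (φ 0)), c.symm w ∈ D := by
    rw [← h7, eventually_map]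
    filter_upwards [hφ.continuousAt.eventually (c.open_source.mem_nhds hs),
      ball_mem_nhds (0 : Cm n) one_pos] with v hv hv1
    rw [c.left_inv hv]
    exact (h v hv1).2.2
  filter_upwards [(c.continuousAt hs).eventually h8, c.open_source.mem_nhds hs] with z hz hzs
  rwa [c.left_inv hzs] at hz

theorem isAnalyticSet_inter {A B : Set X} (hA : IsAnalyticSet (Cm n) A)
    (hB : IsAnalyticSet (Cm n) B) : IsAnalyticSet (Cm n) (A ∩ B) := by
  intro x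
  obtain ⟨U, ι, h, hU, hxU, hh, hA'⟩ := hA x
  obtain ⟨V, κ, k, hV, hxV, hk, hB'⟩ := hB x
  refine ⟨U ∩ V, ι ⊕ κ, fun i => Sum.elim h k i, hU.inter hV, ⟨hxU, hxV⟩, ?_, ?_⟩
  · rintro (i | i) z hz
    · exact hh i z hz.1
    · exact hk i z hz.2
  · intro z hz
    rw [mem_inter_iff, hA' z hz.1, hB' z hz.2]
    constructor
    · rintro ⟨h1, h2⟩ (i | i)
      · exact h1 i
      · exact h2 i
    · exact fun h1 => ⟨fun i => h1 (Sum.inl i), fun i => h1 (Sum.inr i)⟩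

end

/-- **R6** -/
theorem pos (exc : H740.TM.ExcStmt) (ord : OrdStmt) (gen : GenStmt) (hball : BallStmt) :
    PosStmt := by
  intro q X Z Y _ _ _ _ _ _ _ _ g h Δ S e₀ w Θ hs hh 𝒬 𝒟 h𝒬 h𝒟 hE hD
  have hX2 : T2Space X := hs.fib.hausdorff.1
  have hXc : CompactSpace X := hs.fib.compact
  have hZ2 : T2Space Z := hs.fib.hausdorff.2
  have hZc : CompactSpace Z := hh.compact
  have hZn : ConnectedSpace Z := hh.connected
  have hY2 : T2Space Y := hh.hausdorff.2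
  have hYm : IsManifold 𝓘(ℂ, Cm q) ω Y := hh.manifold.2
  have hgh : ContMDiff 𝓘(ℂ, Cm (q + 1 + 1)) 𝓘(ℂ, Cm q) ω (fun x => h (g x)) :=
    hh.hol.comp hs.fib.hol
  -- the four parts
  have p1 : VG q fun y => ∀ D ∈ 𝒟, (D ∩ h ⁻¹' {y}).Countable :=
    VG.of_finite h𝒟 fun D hD' => gen (q + 1) q Z Y h D hh.hol (H511.Gen.isAnalyticSet_prime (hD D hD'))
      fun φ hφ => not_nhds (hD D hD') (nhds_of_ball hφ)
  have p2 : VG q fun y => ∀ E ∈ 𝒬, closure (g '' E) ≠ univ →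
      ¬ J.IsPrime (Cm (q + 1)) (closure (g '' E)) → ∀ x ∈ E, h (g x) ≠ y :=
    VG.of_finite h𝒬 fun E hE' => VG.imp fun hne => VG.imp fun hnp => by
      obtain ⟨-, H, h1, h2⟩ := exc q X Z Y g h hs.fib.hol hh.hol E (hE E hE') hne hnp
      refine ⟨H, h1, fun y hy x hx hxy => ?_⟩
      obtain ⟨k, hk⟩ := mem_iUnion.1 (h2 ⟨x, hx, hxy⟩)
      exact hy k hk
  have p3 : VG q fun y => ∀ E ∈ 𝒬, J.IsPrime (Cm (q + 1)) (closure (g '' E)) → ∀ k o,
        (∃ x, GoodAt (q + 1) g S w Θ E (closure (g '' E)) k o x) →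
        ({x | x ∈ E ∧ ¬ GoodAt (q + 1) g S w Θ E (closure (g '' E)) k o x} ∩
          (fun x => h (g x)) ⁻¹' {y}).Countable :=
    VG.of_finite h𝒬 fun E hE' => VG.imp fun hp => by
      obtain ⟨k, o, -, -, h1, h2, h3⟩ := ord (q + 1) X Z g Δ S e₀ w Θ hs E _ (hE E hE') hp rfl
      refine VG.mono (P := fun y => ({x | x ∈ E ∧ ¬ GoodAt (q + 1) g S w Θ E
        (closure (g '' E)) k o x} ∩ (fun x => h (g x)) ⁻¹' {y}).Countable) ?_ ?_
      · refine gen (q + 1 + 1) q X Y _ _ hgh h1 (hball q X E _ (hE E hE') (fun x hx => hx.1)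
          (H511.Gen.isAnalyticSet_isClosed h1) ?_)
        refine h2.trans (closure_mono fun x hx => ⟨hx.1, fun h4 => h4.2 hx⟩)
      · rintro y hy k' o' ⟨x, hx⟩
        obtain ⟨rfl, rfl⟩ := h3 k' o' x hx
        exact hy
  have p4 : VG q fun y => ∀ E ∈ 𝒬, ∀ E' ∈ 𝒬, E ≠ E' →
      (E ∩ E' ∩ (fun x => h (g x)) ⁻¹' {y}).Countable :=
    VG.of_finite h𝒬 fun E hE1 => VG.of_finite h𝒬 fun E' hE2 => VG.imp fun hne => by
      have h1 := isAnalyticSet_inter (H511.Gen.isAnalyticSet_prime (hE E hE1))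
        (H511.Gen.isAnalyticSet_prime (hE E' hE2))
      refine gen (q + 1 + 1) q X Y _ _ hgh h1 (hball q X E _ (hE E hE1) inter_subset_left
        (H511.Gen.isAnalyticSet_isClosed h1) ?_)
      refine (H511.Gen.subset_closure_diff (hE E hE1)
        (H511.Gen.isAnalyticSet_prime (hE E' hE2)) fun h2 =>
          hne (H511.Gen.prime_eq_of_subset (hE E hE1) (hE E' hE2) h2)).trans
        (closure_mono fun x hx => ⟨hx.1.1, fun h4 => hx.2 h4.2⟩)
  obtain ⟨H, h1, h2⟩ := (p1.and p2).and (p3.and p4)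
  refine ⟨H, h1, fun y hy => ?_⟩
  obtain ⟨⟨a1, a2⟩, a3, a4⟩ := h2 y hy
  refine ⟨a1, a2, fun E hE' D hD' hcl k o hx => ?_, a4⟩
  subst hcl
  exact a3 E hE' hD' k o hx

end Vale.Agent.P281.H22.TM
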